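import Mathlib.Data.Fintype.BigOperators
import Mathlib.Algebra.BigOperators.Fin
import Mathlib.Algebra.Order.BigOperators.Group.Finset
import Mathlib.Data.Fintype.Prod
import Mathlib.Tactic.Linarith
import Mathlib.Tactic.Ring

/-! # P181, TS: tools for the test columns -/

namespace Vale.Agent.P181.TS.H908

open Finset

/-- cyclic windows in the classes -/
theorem exists_win {b R : ℕ} (cl : Fin b → Fin R)
    (h : ∀ i, 0 < (univ.filter fun u => cl u = i).card) :
    ∃ win : Fin R → ℕ → Fin b, (∀ i x, cl (win i x) = i) ∧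
      ∀ i x x', win i x = win i x' →
        x % (univ.filter fun u => cl u = i).card = x' % (univ.filter fun u => cl u = i).card := by
  refine ⟨fun i x => ((univ.filter fun u => cl u = i).equivFin.symm
    ⟨x % (univ.filter fun u => cl u = i).card, Nat.mod_lt _ (h i)⟩ : Fin b), fun i x => ?_,
    fun i x x' hx => ?_⟩
  · exact (mem_filter.1 ((univ.filter fun u => cl u = i).equivFin.symm
      ⟨x % (univ.filter fun u => cl u = i).card, Nat.mod_lt _ (h i)⟩).2).2
  · have h1 := Subtype.ext hx
    have h2 := (univ.filter fun u => cl u = i).equivFin.symm.injective h1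
    exact congrArg Fin.val h2

/-- numbering the elements of every block -/
theorem exists_idx {α : Type*} [DecidableEq α] (T : Finset α) (blk : α → ℕ) (τ : ℕ)
    (h : ∀ β, (T.filter fun t => blk t = β).card ≤ τ) :
    ∃ idx : α → ℕ, (∀ t ∈ T, idx t < τ) ∧
      ∀ t ∈ T, ∀ t' ∈ T, blk t = blk t' → idx t = idx t' → t = t' := by
  classical
  have key : ∀ β : ℕ, ∃ f : α → ℕ, (∀ t ∈ T.filter (fun t => blk t = β), f t < τ) ∧
      ∀ t ∈ T.filter (fun t => blk t = β), ∀ t' ∈ T.filter (fun t => blk t = β),
        f t = f t' → t = t' := fun β => by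
    refine ⟨fun t => if ht : t ∈ T.filter (fun t => blk t = β) then
      ((T.filter (fun t => blk t = β)).equivFin ⟨t, ht⟩ : ℕ) else 0, fun t ht => ?_,
      fun t ht t' ht' hf => ?_⟩
    · dsimp only
      rw [dif_pos ht]
      exact lt_of_lt_of_le (Fin.is_lt _) (h β)
    · dsimp only at hf
      rw [dif_pos ht, dif_pos ht'] at hf
      have h1 := (T.filter (fun t => blk t = β)).equivFin.injective (Fin.ext hf)
      exact congrArg Subtype.val h1
  choose f hf1 hf2 using key
  refine ⟨fun t => f (blk t) t, fun t ht => hf1 _ t (mem_filter.2 ⟨ht, rfl⟩),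
    fun t ht t' ht' hb he => ?_⟩
  refine hf2 (blk t) t (mem_filter.2 ⟨ht, rfl⟩) t' (mem_filter.2 ⟨ht', hb.symm⟩) ?_
  dsimp only at he
  rwa [← hb] at he

/-- a residue class in an interval -/
theorem card_residue (X L p : ℕ) :
    ((range X).filter fun x => x % L = p).card ≤ X / L + 1 := by
  have h1 : ((range X).filter fun x => x % L = p).card ≤ (range (X / L + 1)).card := by
    refine card_le_card_of_injOn (fun x => x / L) ?_ ?_
    · intro x hx
      have h2 := mem_range.1 (mem_filter.1 (mem_coe.1 hx)).1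
      rw [mem_coe, mem_range]
      exact Nat.lt_succ_of_le (Nat.div_le_div_right h2.le)
    · intro x hx x' hx' h2
      have h3 := (mem_filter.1 (mem_coe.1 hx)).2
      have h4 := (mem_filter.1 (mem_coe.1 hx')).2
      dsimp only at h2
      rw [← Nat.div_add_mod x L, ← Nat.div_add_mod x' L, h2, h3, h4]
  rwa [card_range] at h1

/-- the number of windows which meet a residue class -/
theorem card_windows (D W L p : ℕ) (S : Finset (Fin D))
    (hS : ∀ d ∈ S, ∃ s < W, (W * (d : ℕ) + s) % L = p) : S.card ≤ W * D / L + 1 := by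
  classical
  refine le_trans ?_ (card_residue (W * D) L p)
  have key : ∀ d : Fin D, ∃ x : ℕ, d ∈ S →
      (x / W = (d : ℕ) ∧ x < W * D ∧ x % L = p) := fun d => by
    by_cases h : d ∈ S
    · obtain ⟨s, hs, h1⟩ := hS d h
      refine ⟨W * (d : ℕ) + s, fun _ => ⟨?_, ?_, h1⟩⟩
      · rw [Nat.mul_add_div (by omega), Nat.div_eq_of_lt hs, add_zero]
      · calc W * (d : ℕ) + s < W * (d : ℕ) + W := by omega
          _ = W * ((d : ℕ) + 1) := by ring
          _ ≤ W * D := Nat.mul_le_mul_left _ d.2
    · exact ⟨0, fun h' => absurd h' h⟩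
  choose x hx using key
  refine card_le_card_of_injOn x ?_ ?_
  · intro d hd
    have h1 := hx d (mem_coe.1 hd)
    exact mem_coe.2 (mem_filter.2 ⟨mem_range.2 h1.2.1, h1.2.2⟩)
  · intro d hd d' hd' h1
    have h2 := hx d (mem_coe.1 hd)
    have h3 := hx d' (mem_coe.1 hd')
    refine Fin.ext ?_
    rw [← h2.1, ← h3.1, h1]

theorem sum_range_block (F : ℕ → ℕ) (h r : ℕ) :
    ∑ x ∈ range (h * r), F x = ∑ β ∈ range h, ∑ y ∈ range r, F (β * r + y) := by
  induction h with
  | zero => simp
  | succ h ih =>
    rw [sum_range_succ, ← ih, Nat.succ_mul, sum_range_add]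

theorem sum_balanced (H N : ℕ) (hH : 0 < H) :
    ∑ x ∈ range H, (N / H + if x < N % H then 1 else 0) = N := by
  rw [sum_add_distrib, sum_const, card_range, smul_eq_mul, ← Finset.sum_filter,
    Finset.sum_const, smul_eq_mul, mul_one]
  have : (Finset.range H).filter (fun h => h < N % H) = Finset.range (N % H) := by
    ext x
    simp only [Finset.mem_filter, Finset.mem_range]
    have := Nat.mod_lt N hH
    omega
  rw [this, Finset.card_range]
  exact Nat.div_add_mod N H

theorem card_block (g r β : ℕ) (hr : 0 < r) (hβ : β < g) :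
    (univ.filter fun i : Fin (g * r) => (i : ℕ) / r = β).card = r := by
  have h1 : β * r + r ≤ g * r := by
    calc β * r + r = (β + 1) * r := by ring
      _ ≤ g * r := Nat.mul_le_mul_right _ hβ
  have h2 : (univ.filter fun i : Fin (g * r) => (i : ℕ) / r = β).card =
      (univ : Finset (Fin r)).card := by
    refine card_bij' (fun i _ => (⟨(i : ℕ) % r, Nat.mod_lt _ hr⟩ : Fin r))
      (fun y _ => (⟨β * r + (y : ℕ), by have := y.2; omega⟩ : Fin (g * r))) ?_ ?_ ?_ ?_
    · intro i _
      exact mem_univ _
    · intro y _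
      refine mem_filter.2 ⟨mem_univ _, ?_⟩
      show (β * r + (y : ℕ)) / r = β
      rw [mul_comm, Nat.mul_add_div hr, Nat.div_eq_of_lt y.2, add_zero]
    · intro i hi
      have h3 := (mem_filter.1 hi).2
      refine Fin.ext ?_
      show β * r + (i : ℕ) % r = i
      rw [← h3, mul_comm]
      exact Nat.div_add_mod (i : ℕ) r
    · intro y _
      refine Fin.ext ?_
      show (β * r + (y : ℕ)) % r = y
      rw [mul_comm, Nat.mul_add_mod, Nat.mod_eq_of_lt y.2]
  rw [h2, card_univ, Fintype.card_fin]

/-- counting by an injective choice -/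
theorem card_le_of_choice {α β : Type*} [DecidableEq α] [DecidableEq β] (s : Finset α)
    (t : Finset β) (f : β → α) (h : ∀ a ∈ s, ∃ x ∈ t, f x = a) : s.card ≤ t.card := by
  have h1 : s ⊆ t.image f := fun a ha => by
    obtain ⟨x, hx, h2⟩ := h a ha
    exact mem_image.2 ⟨x, hx, h2⟩
  exact (card_le_card h1).trans card_image_le

end Vale.Agent.P181.TS.H908
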