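import Vale.Agent.P181.TS.Spec
import Vale.Agent.P181.TS.H908.DTools

/-!
# P181, TS [D]: the test columns

Column `d < 2 τ`: the blocks tested in the column have one letter of every class, except that for a
test `(i, k, u, v)` the two letters `u, v` are taken from the class `i` and none from the class `k`;
the classes of the other half of the blocks carry the additional letters (cyclic windows).
-/

set_option autoImplicit false

namespace Vale.Agent.P181.TS.H908

open Finset Vale.Agent.P181 Vale.Agent.P181.H59 Vale.Agent.P181.TS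

theorem dCol : DColStmt := by
  classical
  intro b r h e τ z cl y T hr hh he hcl hT len hlen
  obtain ⟨hT1, hT2, hT3, hT4, -⟩ := hT
  have hhr : 0 < h * r := Nat.mul_pos hh hr
  have hR : 2 * h * r = h * r + h * r := by ring
  have he0 : 0 < e := by omega
  have hcl0 : ∀ i, 0 < (univ.filter fun u => cl u = i).card := fun i =>
    lt_of_lt_of_le he0 (hcl i).1
  obtain ⟨win, hw1, hw2⟩ := exists_win cl hcl0
  obtain ⟨idx, hi1, hi2⟩ := exists_idx T (fun t => (t.1 : ℕ) / r) τ hT2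
  -- the column of a test
  obtain ⟨D, hD⟩ : ∃ D : Tst b (2 * h * r) → ℕ, ∀ t, D t = idx t +
      if (t.1 : ℕ) / r < h then 0 else τ := ⟨fun t => idx t +
      if (t.1 : ℕ) / r < h then 0 else τ, fun _ => rfl⟩
  have hD1 : ∀ t ∈ T, ((t.1 : ℕ) / r < h ↔ D t < τ) := fun t ht => by
    have := hi1 t ht
    rw [hD]
    split_ifs with h1
    · simp only [h1, add_zero, true_iff]
      exact this
    · simp only [h1, false_iff]
      omega
  have hD2 : ∀ t ∈ T, D t < 2 * τ := fun t ht => by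
    have := hi1 t ht
    rw [hD]
    split_ifs <;> omega
  have hD3 : ∀ t ∈ T, ∀ t' ∈ T, (t.1 : ℕ) / r = (t'.1 : ℕ) / r → D t = D t' → t = t' :=
    fun t ht t' ht' hb hd => by
      refine hi2 t ht t' ht' hb ?_
      rw [hD, hD, hb] at hd
      exact Nat.add_right_cancel hd
  -- the letter of the class `i` in a tested block
  obtain ⟨ψ, hψ⟩ : ∃ ψ : Fin (2 * τ) → Fin (2 * h * r) → Fin b, ∀ d i, ψ d i =
      if H : ∃ t ∈ T, D t = d ∧ t.1 = i then H.choose.2.2.1
      else if H' : ∃ t ∈ T, D t = d ∧ t.2.1 = i then H'.choose.2.2.2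
      else win i (256 * (d : ℕ) + 0) := ⟨fun d i =>
      if H : ∃ t ∈ T, D t = d ∧ t.1 = i then H.choose.2.2.1
      else if H' : ∃ t ∈ T, D t = d ∧ t.2.1 = i then H'.choose.2.2.2
      else win i (256 * (d : ℕ) + 0), fun _ _ => rfl⟩
  have hψ1 : ∀ t ∈ T, ∀ d : Fin (2 * τ), D t = d → ψ d t.1 = t.2.2.1 := fun t ht d hd => by
    have H : ∃ t' ∈ T, D t' = d ∧ t'.1 = t.1 := ⟨t, ht, hd, rfl⟩
    rw [hψ, dif_pos H]
    have h1 := H.choose_spec
    rw [hD3 _ h1.1 t ht (by rw [h1.2.2]) (by rw [h1.2.1, hd])]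
  have hψ2 : ∀ t ∈ T, ∀ d : Fin (2 * τ), D t = d → ψ d t.2.1 = t.2.2.2 := fun t ht d hd => by
    have H : ¬ ∃ t' ∈ T, D t' = d ∧ t'.1 = t.2.1 := by
      rintro ⟨t', ht', hd', he'⟩
      have h1 := hD3 t' ht' t ht (by rw [he']; exact (hT1 t ht).2.2.2.2.1) (by rw [hd, hd'])
      rw [h1] at he'
      exact (hT1 t ht).2.2.2.1 he'.symm
    have H' : ∃ t' ∈ T, D t' = d ∧ t'.2.1 = t.2.1 := ⟨t, ht, hd, rfl⟩
    rw [hψ, dif_neg H, dif_pos H']
    have h1 := H'.choose_spec
    rw [hD3 _ h1.1 t ht (by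
      rw [← (hT1 _ h1.1).2.2.2.2.1, ← (hT1 t ht).2.2.2.2.1, h1.2.2]) (by rw [h1.2.1, hd])]
  have hψ3 : ∀ (d : Fin (2 * τ)) (i : Fin (2 * h * r)), (¬ ∃ t ∈ T, D t = d ∧ t.1 = i) → (¬ ∃ t ∈ T, D t = d ∧ t.2.1 = i) →
      ψ d i = win i (256 * (d : ℕ) + 0) := fun d i H H' => by
    rw [hψ, dif_neg H, dif_neg H']
  -- the class of that letter
  have hψ4 : ∀ (d : Fin (2 * τ)) (i : Fin (2 * h * r)), (¬ ∃ t ∈ T, D t = d ∧ t.2.1 = i) → cl (ψ d i) = i := fun d i H' => by
    by_cases H : ∃ t ∈ T, D t = d ∧ t.1 = i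
    · obtain ⟨t, ht, hd, rfl⟩ := H
      rw [hψ1 t ht d hd]
      exact (hT1 t ht).1
    · rw [hψ3 d i H H', hw1]
  have hψ5 : ∀ t ∈ T, ∀ d : Fin (2 * τ), D t = d → cl (ψ d t.2.1) = t.1 := fun t ht d hd => by
    rw [hψ2 t ht d hd]
    exact (hT1 t ht).2.1
  have hψb : ∀ d i, (cl (ψ d i) : ℕ) / r = (i : ℕ) / r := fun d i => by
    by_cases H : ∃ t ∈ T, D t = d ∧ t.2.1 = i
    · obtain ⟨t, ht, hd, rfl⟩ := H
      rw [hψ5 t ht d hd]
      exact (hT1 t ht).2.2.2.2.1.symm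
    · rw [hψ4 d i H]
  -- the numbers
  obtain ⟨te, hte⟩ : ∃ te : Fin (2 * τ) → Fin (2 * h * r) → Prop, ∀ d i, te d i ↔
      ((i : ℕ) / r < h ↔ (d : ℕ) < τ) := ⟨fun d i => ((i : ℕ) / r < h ↔ (d : ℕ) < τ),
        fun _ _ => Iff.rfl⟩
  obtain ⟨N, hN⟩ : ∃ N : Fin (2 * τ) → ℕ, ∀ d, N d + h * r = len d :=
    ⟨fun d => len d - h * r, fun d => by have := (hlen d).1; dsimp only; omega⟩
  obtain ⟨q, hq⟩ : ∃ q : Fin (2 * τ) → ℕ → ℕ, ∀ d x, q d x = N d / (h * r) +
      if x < N d % (h * r) then 1 else 0 := ⟨fun d x => N d / (h * r) +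
      if x < N d % (h * r) then 1 else 0, fun _ _ => rfl⟩
  have hq1 : ∀ d x, 1 ≤ q d x := fun d x => by
    have h1 : 1 ≤ N d / (h * r) := by
      rw [Nat.le_div_iff_mul_le hhr]
      have := (hlen d).1
      have := hN d
      omega
    rw [hq]
    omega
  have hq2 : ∀ d x, q d x ≤ 256 := fun d x => by
    have h1 : N d / (h * r) < 256 := by
      rw [Nat.div_lt_iff_lt_mul hhr]
      have h2 := (hlen d).2
      have h3 := hN d
      rw [hR] at h2
      omega
    rw [hq]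
    split_ifs <;> omega
  obtain ⟨n, hn⟩ : ∃ n : Fin (2 * τ) → Fin (2 * h * r) → ℕ, ∀ d i, n d i =
      if te d i then 1 else q d ((i : ℕ) % (h * r)) := ⟨fun d i =>
      if te d i then 1 else q d ((i : ℕ) % (h * r)), fun _ _ => rfl⟩
  have hn1 : ∀ d i, 1 ≤ n d i := fun d i => by
    rw [hn]
    split_ifs
    · exact le_rfl
    · exact hq1 _ _
  have hn2 : ∀ d i, n d i ≤ 256 := fun d i => by
    rw [hn]
    split_ifs
    · norm_num
    · exact hq2 _ _
  have hblk : ∀ x : ℕ, x < h * r → x / r < h := fun x hx => by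
    rwa [Nat.div_lt_iff_lt_mul hr]
  have hblk' : ∀ x : ℕ, ¬ (h * r + x) / r < h := fun x => by
    rw [Nat.div_lt_iff_lt_mul hr]
    omega
  have hnsum : ∀ d, ∑ i, n d i = len d := fun d => by
    obtain ⟨m, hm⟩ : ∃ m : ℕ → ℕ, ∀ x, m x =
      if (x / r < h ↔ (d : ℕ) < τ) then 1 else q d (x % (h * r)) :=
      ⟨fun x => if (x / r < h ↔ (d : ℕ) < τ) then 1 else q d (x % (h * r)), fun _ => rfl⟩
    have h1 : ∑ i, n d i = ∑ i : Fin (2 * h * r), m i := sum_congr rfl fun i _ => by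
      rw [hn, hm]
      by_cases h1 : te d i
      · rw [if_pos h1, if_pos ((hte d i).1 h1)]
      · rw [if_neg h1, if_neg (fun h2 => h1 ((hte d i).2 h2))]
    rw [h1, Fin.sum_univ_eq_sum_range m, hR, sum_range_add, ← hN d]
    by_cases hd : (d : ℕ) < τ
    · have h2 : ∑ x ∈ range (h * r), m x = h * r := by
        rw [sum_congr rfl fun x hx => by
          rw [hm, if_pos (iff_of_true (hblk x (mem_range.1 hx)) hd)]]
        rw [sum_const, card_range, smul_eq_mul, mul_one]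
      have h3 : ∑ x ∈ range (h * r), m (h * r + x) = N d := by
        rw [sum_congr rfl fun x hx => by
          rw [hm, if_neg (fun h4 => hblk' x (h4.2 hd)), Nat.add_mod_left,
            Nat.mod_eq_of_lt (mem_range.1 hx), hq]]
        exact sum_balanced _ _ hhr
      omega
    · have h2 : ∑ x ∈ range (h * r), m x = N d := by
        rw [sum_congr rfl fun x hx => by
          rw [hm, if_neg (fun h4 => hd (h4.1 (hblk x (mem_range.1 hx)))),
            Nat.mod_eq_of_lt (mem_range.1 hx), hq]]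
        exact sum_balanced _ _ hhr
      have h3 : ∑ x ∈ range (h * r), m (h * r + x) = h * r := by
        rw [sum_congr rfl fun x hx => by
          rw [hm, if_pos (iff_of_false (hblk' x) hd)]]
        rw [sum_const, card_range, smul_eq_mul, mul_one]
      omega
  -- the letters
  obtain ⟨I, hI⟩ : ∃ I : Fin (2 * τ) → Finset (Fin (2 * h * r) × Fin 256), ∀ d x,
      x ∈ I d ↔ (x.2 : ℕ) < n d x.1 :=
    ⟨fun d => univ.filter fun x => (x.2 : ℕ) < n d x.1, fun d x => by simp⟩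
  have hIc : ∀ d (S : Finset (Fin (2 * h * r))),
      ((I d).filter fun x => x.1 ∈ S).card = ∑ i ∈ S, n d i := fun d S => by
    have h0 := card_eq_sum_card_fiberwise (s := (I d).filter fun x => x.1 ∈ S)
      (f := fun x => x.1) (t := S) (fun x hx => (mem_filter.1 (mem_coe.1 hx)).2)
    rw [h0]
    refine sum_congr rfl fun i hi => ?_
    have h1 : (((I d).filter fun x => x.1 ∈ S).filter fun x => x.1 = i).card =
        (univ.filter fun s : Fin 256 => (s : ℕ) < n d i).card := by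
      refine card_bij' (fun x _ => x.2) (fun s _ => (i, s)) ?_ ?_ ?_ ?_
      · intro x hx
        obtain ⟨hx1, hx2⟩ := mem_filter.1 hx
        have hx3 := (hI d x).1 (mem_filter.1 hx1).1
        rw [hx2] at hx3
        exact mem_filter.2 ⟨mem_univ _, hx3⟩
      · intro s hs
        exact mem_filter.2 ⟨mem_filter.2 ⟨(hI d _).2 (mem_filter.1 hs).2, hi⟩, rfl⟩
      · intro x hx
        exact Prod.ext (mem_filter.1 hx).2.symm rfl
      · intro s _
        rfl
    rw [h1]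
    have h2 : (univ.filter fun s : Fin 256 => (s : ℕ) < n d i).card = min 256 (n d i) :=
      Fin.card_filter_val_lt
    rw [Nat.min_eq_right (hn2 d i)] at h2
    exact h2
  obtain ⟨Ψ, hΨ⟩ : ∃ Ψ : Fin (2 * τ) → Fin (2 * h * r) × Fin 256 → Fin b, ∀ d x, Ψ d x =
      if te d x.1 then ψ d x.1 else win x.1 (256 * (d : ℕ) + (x.2 : ℕ)) := ⟨fun d x =>
      if te d x.1 then ψ d x.1 else win x.1 (256 * (d : ℕ) + (x.2 : ℕ)), fun _ _ => rfl⟩
  have hte1 : ∀ t ∈ T, ∀ d : Fin (2 * τ), D t = d → te d t.1 := fun t ht d hd => by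
    rw [hte, ← hd]
    exact hD1 t ht
  have hte2 : ∀ d (i j : Fin (2 * h * r)), (i : ℕ) / r = (j : ℕ) / r → (te d i ↔ te d j) :=
    fun d i j hij => by rw [hte, hte, hij]
  have hΨb : ∀ d x, (cl (Ψ d x) : ℕ) / r = (x.1 : ℕ) / r := fun d x => by
    rw [hΨ]
    split_ifs
    · exact hψb d x.1
    · rw [hw1]
  have hΨc : ∀ (d : Fin (2 * τ)) (x : Fin (2 * h * r) × Fin 256), (¬ ∃ t ∈ T, D t = d ∧ t.2.1 = x.1) → cl (Ψ d x) = x.1 := fun d x H => by
    rw [hΨ]
    split_ifs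
    · exact hψ4 d x.1 H
    · rw [hw1]
  have hΨt : ∀ t ∈ T, ∀ d : Fin (2 * τ), D t = d → ∀ x : Fin (2 * h * r) × Fin 256,
      x.1 = t.2.1 → Ψ d x = t.2.2.2 := fun t ht d hd x hx => by
    rw [hΨ, if_pos, hx, hψ2 t ht d hd]
    rw [hx, hte2 d _ _ (hT1 t ht).2.2.2.2.1]
    exact hte1 t ht d hd
  have hΨs : ∀ t ∈ T, ∀ d : Fin (2 * τ), D t = d → ∀ x : Fin (2 * h * r) × Fin 256,
      x.1 = t.1 → Ψ d x = t.2.2.1 := fun t ht d hd x hx => by
    rw [hΨ, if_pos, hx, hψ1 t ht d hd]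
    rw [hx]
    exact hte1 t ht d hd
  have hinj : ∀ d, Set.InjOn (Ψ d) (I d : Set (Fin (2 * h * r) × Fin 256)) := by
    intro d x hx x' hx' hxx
    have hx0 := (hI d x).1 (mem_coe.1 hx)
    have hx0' := (hI d x').1 (mem_coe.1 hx')
    -- the classes agree
    have hc : x.1 = x'.1 := by
      by_cases H : ∃ t ∈ T, D t = d ∧ t.2.1 = x.1
      · obtain ⟨t, ht, hd, hk⟩ := H
        by_cases H' : ∃ t ∈ T, D t = d ∧ t.2.1 = x'.1
        · obtain ⟨t', ht', hd', hk'⟩ := H'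
          have hb := hΨb d x
          rw [hxx, hΨb d x', ← hk, ← hk', (hT1 t ht).2.2.2.2.1, (hT1 t' ht').2.2.2.2.1] at hb
          have := hD3 t' ht' t ht hb (by rw [hd, hd'])
          rw [← hk, ← hk', this]
        · exfalso
          have h1 := hΨc d x' H'
          have h2 := hΨt t ht d hd x hk.symm
          rw [← hxx, h2] at h1
          have h3 : x'.1 = t.1 := by rw [← h1]; exact (hT1 t ht).2.1
          have h4 := hΨs t ht d hd x' h3
          rw [← hxx, h2] at h4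
          exact (hT1 t ht).2.2.1 h4.symm
      · by_cases H' : ∃ t ∈ T, D t = d ∧ t.2.1 = x'.1
        · obtain ⟨t, ht, hd, hk⟩ := H'
          exfalso
          have h1 := hΨc d x H
          have h2 := hΨt t ht d hd x' hk.symm
          rw [hxx, h2] at h1
          have h3 : x.1 = t.1 := by rw [← h1]; exact (hT1 t ht).2.1
          have h4 := hΨs t ht d hd x h3
          rw [hxx, h2] at h4
          exact (hT1 t ht).2.2.1 h4.symm
        · rw [← hΨc d x H, ← hΨc d x' H', hxx]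
    refine Prod.ext hc ?_
    by_cases ht : te d x.1
    · rw [hn, if_pos ht] at hx0
      rw [hn, ← hc, if_pos ht] at hx0'
      exact Fin.ext (by omega)
    · rw [hΨ, hΨ, ← hc, if_neg ht, if_neg ht] at hxx
      have h1 := hw2 _ _ _ hxx
      have hL : 256 ≤ (univ.filter fun u => cl u = x.1).card := by
        have := (hcl x.1).1
        have h2 : e ≤ (univ.filter fun u => cl u = x.1).card := this
        omega
      have h2 : (x.2 : ℕ) ≡ (x'.2 : ℕ) [MOD (univ.filter fun u => cl u = x.1).card] :=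
        Nat.ModEq.add_left_cancel' (256 * (d : ℕ)) h1
      have h3 := Nat.ModEq.eq_of_lt_of_lt h2 (lt_of_lt_of_le x.2.2 hL)
        (lt_of_lt_of_le x'.2.2 hL)
      exact Fin.ext h3
  obtain ⟨B, hB⟩ : ∃ B : Fin (2 * τ) → Finset (Fin b), ∀ d, B d = (I d).image (Ψ d) :=
    ⟨fun d => (I d).image (Ψ d), fun _ => rfl⟩
  have hmem : ∀ d u, u ∈ B d ↔ ∃ x ∈ I d, Ψ d x = u := fun d u => by rw [hB, mem_image]
  have hmem0 : ∀ d i, Ψ d (i, 0) ∈ B d := fun d i =>
    (hmem d _).2 ⟨(i, 0), (hI d _).2 (hn1 d i), rfl⟩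
  have hmiss : ∀ (d : Fin (2 * τ)) i, i ∈ miss cl (B d) ↔ ∃ t ∈ T, D t = d ∧ t.2.1 = i := by
    intro d i
    rw [miss, mem_filter]
    constructor
    · rintro ⟨-, h1⟩
      by_contra H
      exact h1 _ (hmem0 d i) (hΨc d (i, 0) H)
    · rintro ⟨t, ht, hd, rfl⟩
      refine ⟨mem_univ _, fun u hu h1 => ?_⟩
      obtain ⟨x, -, rfl⟩ := (hmem d u).1 hu
      by_cases H : ∃ t' ∈ T, D t' = d ∧ t'.2.1 = x.1
      · obtain ⟨t', ht', hd', hk'⟩ := H
        rw [hΨt t' ht' d hd' x hk'.symm, (hT1 t' ht').2.1] at h1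
        have h2 := hD3 t' ht' t ht (by rw [h1]; exact (hT1 t ht).2.2.2.2.1) (by rw [hd, hd'])
        rw [h2] at h1
        exact (hT1 t ht).2.2.2.1 h1.symm
      · rw [hΨc d x H] at h1
        exact H ⟨t, ht, hd, h1.symm⟩
  have hblkc : ∀ d i, te d i → (inBlk r cl (B d) ((i : ℕ) / r)).card = r := by
    intro d i hi
    have h1 : inBlk r cl (B d) ((i : ℕ) / r) =
        ((I d).filter fun x => x.1 ∈ univ.filter fun j : Fin (2 * h * r) =>
          (j : ℕ) / r = (i : ℕ) / r).image (Ψ d) := by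
      ext u
      rw [inBlk, mem_filter, hmem, mem_image]
      constructor
      · rintro ⟨⟨x, hx, rfl⟩, h2⟩
        rw [hΨb] at h2
        exact ⟨x, mem_filter.2 ⟨hx, mem_filter.2 ⟨mem_univ _, h2⟩⟩, rfl⟩
      · rintro ⟨x, hx, rfl⟩
        obtain ⟨hx1, hx2⟩ := mem_filter.1 hx
        refine ⟨⟨x, hx1, rfl⟩, ?_⟩
        rw [hΨb]
        exact (mem_filter.1 hx2).2
    rw [h1, card_image_of_injOn ((hinj d).mono (by
      intro x hx
      exact mem_coe.2 (mem_filter.1 (mem_coe.1 hx)).1)), hIc]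
    rw [sum_congr rfl fun j hj => by
      rw [hn, if_pos ((hte2 d j i (mem_filter.1 hj).2).2 hi)], sum_const, smul_eq_mul, mul_one]
    refine card_block (2 * h) r _ hr ?_
    rw [Nat.div_lt_iff_lt_mul hr]
    exact i.2
  have huv : ∀ t ∈ T, ∀ d : Fin (2 * τ), D t = d → t.2.2.1 ∈ B d ∧ t.2.2.2 ∈ B d :=
    fun t ht d hd => ⟨by
      have := hmem0 d t.1
      rwa [hΨs t ht d hd _ rfl] at this, by
      have := hmem0 d t.2.1
      rwa [hΨt t ht d hd _ rfl] at this⟩
  refine ⟨B, ?_, ?_, ?_, ?_, ?_⟩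
  · intro d
    rw [hB, card_image_of_injOn (hinj d), ← hnsum d, ← hIc d univ]
    congr 1
    ext x
    simp
  · intro d β
    by_cases H : ∃ t ∈ T, D t = d ∧ (t.1 : ℕ) / r = β
    · obtain ⟨t, ht, hd, rfl⟩ := H
      refine Or.inr ⟨t.2.1, (hT1 t ht).2.2.2.2.1, fun i hi => ?_, hblkc d t.1 (hte1 t ht d hd),
        t.2.2.1, (huv t ht d hd).1, t.2.2.2, (huv t ht d hd).2, (hT1 t ht).2.2.1, ?_, ?_,
        (hT1 t ht).2.2.2.2.2⟩
      · rw [hmiss]
        constructor
        · rintro ⟨t', ht', hd', rfl⟩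
          rw [hD3 t' ht' t ht (by rw [← hi]; exact (hT1 t' ht').2.2.2.2.1.symm) (by rw [hd, hd'])]
        · rintro rfl
          exact ⟨t, ht, hd, rfl⟩
      · rw [(hT1 t ht).1, (hT1 t ht).2.1]
      · rw [(hT1 t ht).1]
    · refine Or.inl fun i hi h1 => H ?_
      obtain ⟨t, ht, hd, rfl⟩ := (hmiss d i).1 h1
      exact ⟨t, ht, hd, by rw [← hi]; exact (hT1 t ht).2.2.2.2.1.symm⟩
  · intro t ht
    have hd : D t = ((⟨D t, hD2 t ht⟩ : Fin (2 * τ)) : ℕ) := rfl
    refine ⟨⟨D t, hD2 t ht⟩, (huv t ht _ hd).1, (huv t ht _ hd).2, hblkc _ t.1 (hte1 t ht _ hd),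
      fun k hk hkr => ?_⟩
    obtain ⟨t', ht', hd', rfl⟩ := (hmiss _ k).1 hk
    rw [hD3 t' ht' t ht (by rw [← hkr]; exact (hT1 t' ht').2.2.2.2.1.symm) (by rw [hd'])]
  · intro u
    obtain ⟨S1, hS1⟩ : ∃ S1 : Finset (Fin (2 * τ)), ∀ d, d ∈ S1 ↔
        ∃ t ∈ T, (t.2.2.1 = u ∨ t.2.2.2 = u) ∧ D t = d :=
      ⟨univ.filter fun d : Fin (2 * τ) => ∃ t ∈ T, (t.2.2.1 = u ∨ t.2.2.2 = u) ∧ D t = d,
        fun d => by simp only [mem_filter, mem_univ, true_and]⟩
    obtain ⟨S2, hS2⟩ : ∃ S2 : Finset (Fin (2 * τ)), ∀ d, d ∈ S2 ↔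
        ∃ s, s < 256 ∧ win (cl u) (256 * (d : ℕ) + s) = u :=
      ⟨univ.filter fun d : Fin (2 * τ) => ∃ s, s < 256 ∧ win (cl u) (256 * (d : ℕ) + s) = u,
        fun d => by simp only [mem_filter, mem_univ, true_and]⟩
    have h1 : dgr B u ≤ S1.card + S2.card := by
      rw [dgr]
      refine le_trans (card_le_card ?_) (card_union_le _ _)
      intro d hd
      obtain ⟨x, hx, hxu⟩ := (hmem d u).1 (mem_filter.1 hd).2
      rw [mem_union, hS1, hS2]
      by_cases H1 : ∃ t ∈ T, D t = d ∧ t.1 = x.1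
      · obtain ⟨t, ht, hdt, hk⟩ := H1
        rw [hΨs t ht d hdt x hk.symm] at hxu
        exact Or.inl ⟨t, ht, Or.inl hxu, hdt⟩
      · by_cases H2 : ∃ t ∈ T, D t = d ∧ t.2.1 = x.1
        · obtain ⟨t, ht, hdt, hk⟩ := H2
          rw [hΨt t ht d hdt x hk.symm] at hxu
          exact Or.inl ⟨t, ht, Or.inr hxu, hdt⟩
        · have h2 := hΨc d x H2
          rw [hxu] at h2
          refine Or.inr ?_
          rw [hΨ] at hxu
          split_ifs at hxu
          · rw [hψ3 d _ H1 H2] at hxu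
            exact ⟨0, by norm_num, by rw [h2]; exact hxu⟩
          · exact ⟨x.2, x.2.2, by rw [h2]; exact hxu⟩
    have h2 : S1.card ≤ 10 * r := by
      refine le_trans ?_ (hT4 u)
      have h3 : (S1.image (fun d : Fin (2 * τ) => (d : ℕ))).card ≤
          (T.filter (fun t => t.2.2.1 = u ∨ t.2.2.2 = u)).card := by
        refine card_le_of_choice _ _ D fun a ha => ?_
        obtain ⟨d, hd, rfl⟩ := mem_image.1 ha
        obtain ⟨t, ht, hu, hdt⟩ := (hS1 d).1 hd
        exact ⟨t, mem_filter.2 ⟨ht, hu⟩, hdt⟩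
      rwa [card_image_of_injective _ Fin.val_injective] at h3
    have h3 : S2.card ≤ 512 * (τ / e + 1) := by
      have h4 : 256 * (2 * τ) / (univ.filter fun v => cl v = cl u).card + 1 ≤
          512 * (τ / e + 1) := by
        have h5 : 256 * (2 * τ) / (univ.filter fun v => cl v = cl u).card ≤
            256 * (2 * τ) / e := Nat.div_le_div_left (hcl (cl u)).1 he0
        have h6 : 256 * (2 * τ) / e < 512 * (τ / e + 1) := by
          rw [Nat.div_lt_iff_lt_mul he0]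
          have h7 : τ < e * (τ / e + 1) := Nat.lt_mul_div_succ τ he0
          calc 256 * (2 * τ) = 512 * τ := by ring
            _ < 512 * (e * (τ / e + 1)) := by omega
            _ = 512 * (τ / e + 1) * e := by ring
        omega
      by_cases H : ∃ x0, win (cl u) x0 = u
      · obtain ⟨x0, hx0⟩ := H
        refine le_trans (card_windows (2 * τ) 256
          (univ.filter fun v => cl v = cl u).card
          (x0 % (univ.filter fun v => cl v = cl u).card) S2 fun d hd => ?_) h4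
        obtain ⟨s, hs, h5⟩ := (hS2 d).1 hd
        exact ⟨s, hs, hw2 _ _ _ (h5.trans hx0.symm)⟩
      · have h5 : S2 = ∅ := eq_empty_of_forall_notMem fun d hd => by
          obtain ⟨s, -, h6⟩ := (hS2 d).1 hd
          exact H ⟨_, h6⟩
        rw [h5, card_empty]
        exact Nat.zero_le _
    omega
  · intro k
    refine le_trans ?_ (hT3 k)
    have h3 : ((univ.filter fun d : Fin (2 * τ) => k ∈ miss cl (B d)).image
        (fun d : Fin (2 * τ) => (d : ℕ))).card ≤ (T.filter (fun t => t.2.1 = k)).card := by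
      refine card_le_of_choice _ _ D fun a ha => ?_
      obtain ⟨d, hd, rfl⟩ := mem_image.1 ha
      obtain ⟨t, ht, hdt, hk⟩ := (hmiss d k).1 (mem_filter.1 hd).2
      exact ⟨t, mem_filter.2 ⟨ht, hk⟩, hdt⟩
    rwa [card_image_of_injective _ Fin.val_injective] at h3

end Vale.Agent.P181.TS.H908
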